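import Mathlib
import Vale.Agent.Lib.P137.helper41.Defs

namespace Vale.Agent.Lib.P137.H40

open Vale.Agent.Lib.P137 MeasureTheory Metric Set Filter
open scoped ENNReal NNReal Topology

/-- The centered maximal function of (the positive part of) a Lipschitz function moves by at most
`L * dist x y`. -/
theorem cmax_lipschitz {d : ℕ} (g : E d → ℝ) {L : ℝ≥0} (hL : LipschitzWith L g) (x y : E d) :
    cmax (fun z => ENNReal.ofReal (g z)) x ≤
      cmax (fun z => ENNReal.ofReal (g z)) y + ENNReal.ofReal (L * dist x y) := by
  unfold cmax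
  refine iSup₂_le fun r hr => ?_
  have hgm : Measurable (fun z : E d => ENNReal.ofReal (g z)) :=
    ENNReal.measurable_ofReal.comp hL.continuous.measurable
  -- translation
  have hpre : (fun z : E d => z + (x - y)) ⁻¹' ball x r = ball y r := by
    ext z
    simp only [mem_preimage, mem_ball, dist_eq_norm]
    have : z + (x - y) - x = z - y := by abel
    rw [this]
  have htr : ∫⁻ z in ball x r, ENNReal.ofReal (g z) =
      ∫⁻ z in ball y r, ENNReal.ofReal (g (z + (x - y))) := by
    have h := (measurePreserving_add_right (volume : Measure (E d)) (x - y)).setLIntegral_comp_preimage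
      (measurableSet_ball (x := x) (ε := r)) hgm
    rw [hpre] at h
    exact h.symm
  have hpt : ∀ z : E d, ENNReal.ofReal (g (z + (x - y))) ≤
      ENNReal.ofReal (g z) + ENNReal.ofReal (L * dist x y) := by
    intro z
    have h1 := hL.dist_le_mul (z + (x - y)) z
    have h2 : dist (z + (x - y)) z = dist x y := by
      rw [dist_eq_norm, dist_eq_norm]
      congr 1
      abel
    rw [h2, Real.dist_eq] at h1
    have h3 : g (z + (x - y)) ≤ g z + L * dist x y := by
      have := le_of_abs_le h1
      linarith
    exact (ENNReal.ofReal_le_ofReal h3).trans ENNReal.ofReal_add_le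
  have hint : ∫⁻ z in ball x r, ENNReal.ofReal (g z) ≤
      (∫⁻ z in ball y r, ENNReal.ofReal (g z)) +
        ENNReal.ofReal (L * dist x y) * volume (ball y r) := by
    rw [htr]
    calc ∫⁻ z in ball y r, ENNReal.ofReal (g (z + (x - y)))
        ≤ ∫⁻ z in ball y r, (ENNReal.ofReal (g z) + ENNReal.ofReal (L * dist x y)) :=
          lintegral_mono hpt
      _ = (∫⁻ z in ball y r, ENNReal.ofReal (g z)) +
          ENNReal.ofReal (L * dist x y) * volume (ball y r) := by
          rw [lintegral_add_right _ measurable_const, setLIntegral_const]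
  have hV : volume (ball x r) = volume (ball y r) := by
    rw [Measure.addHaar_ball_center, Measure.addHaar_ball_center volume y]
  have hV0 : volume (ball y r) ≠ 0 := (measure_ball_pos volume y hr).ne'
  have hVt : volume (ball y r) ≠ ⊤ := measure_ball_lt_top.ne
  rw [hV]
  calc (∫⁻ z in ball x r, ENNReal.ofReal (g z)) / volume (ball y r)
      ≤ ((∫⁻ z in ball y r, ENNReal.ofReal (g z)) +
        ENNReal.ofReal (L * dist x y) * volume (ball y r)) / volume (ball y r) := by
        gcongr
    _ = (∫⁻ z in ball y r, ENNReal.ofReal (g z)) / volume (ball y r) +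
        ENNReal.ofReal (L * dist x y) := by
        rw [ENNReal.add_div, ENNReal.mul_div_cancel_right hV0 hVt]
    _ ≤ (⨆ r : ℝ, ⨆ _ : 0 < r, (∫⁻ z in ball y r, ENNReal.ofReal (g z)) / volume (ball y r)) +
        ENNReal.ofReal (L * dist x y) := by
        gcongr
        exact le_iSup₂ (f := fun (r : ℝ) (_ : 0 < r) =>
          (∫⁻ z in ball y r, ENNReal.ofReal (g z)) / volume (ball y r)) r hr

end Vale.Agent.Lib.P137.H40
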