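import Mathlib
import Vale.Agent.Lib.P137.helper41.Defs

namespace Vale.Agent.Lib.P137.H40

open Vale.Agent.Lib.P137 MeasureTheory Metric
open scoped ENNReal

/-- Hardy inequality with weight `1/|x|` for the centered averages of a radial function, given the
tail bound as a hypothesis (Tonelli). -/
theorem hardy_of {d : ℕ} (hd : 1 ≤ d) (F : ℝ → ℝ≥0∞) (hF : Antitone F)
    (htail : ∀ a : ℝ, 0 < a → ∫⁻ x in {x : E d | a < ‖x‖},
      (volume (ball (0 : E d) ‖x‖))⁻¹ / ENNReal.ofReal ‖x‖ ≤ 2 ^ (d + 1) / ENNReal.ofReal a) :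
    ∫⁻ x : E d, cavg d F ‖x‖ / ENNReal.ofReal ‖x‖ ≤
      2 ^ (d + 1) * ∫⁻ z : E d, F ‖z‖ / ENNReal.ofReal ‖z‖ := by
  have : Nontrivial (E d) := by
    apply Module.nontrivial_of_finrank_pos (R := ℝ)
    rw [finrank_euclideanSpace_fin]
    exact hd
  set w : E d → ℝ≥0∞ := fun x => (volume (ball (0 : E d) ‖x‖))⁻¹ / ENNReal.ofReal ‖x‖ with hw
  have hV : Measurable (fun s : ℝ => volume (ball (0 : E d) s)) := by
    apply Monotone.measurable
    intro s t hst
    exact measure_mono (ball_subset_ball hst)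
  have hwm : Measurable w :=
    ((hV.comp measurable_norm).inv).div (ENNReal.measurable_ofReal.comp measurable_norm)
  have hFm : Measurable (fun z : E d => F ‖z‖) := hF.measurable.comp measurable_norm
  set G : E d → E d → ℝ≥0∞ := fun x z => (if ‖z‖ < ‖x‖ then F ‖z‖ else 0) * w x with hG
  have hGm : Measurable (Function.uncurry G) := by
    have h1 : Measurable (fun p : E d × E d => if ‖p.2‖ < ‖p.1‖ then F ‖p.2‖ else 0) :=
      Measurable.ite (measurableSet_lt (measurable_norm.comp measurable_snd)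
        (measurable_norm.comp measurable_fst)) (hFm.comp measurable_snd) measurable_const
    exact h1.mul (hwm.comp measurable_fst)
  have hL : ∀ x : E d, cavg d F ‖x‖ / ENNReal.ofReal ‖x‖ = ∫⁻ z, G x z := by
    intro x
    have h2 : ∫⁻ z, G x z = (∫⁻ z : E d, (if ‖z‖ < ‖x‖ then F ‖z‖ else 0)) * w x := by
      simp only [hG]
      rw [lintegral_mul_const]
      exact Measurable.ite (measurableSet_lt measurable_norm measurable_const) hFm
        measurable_const
    have h3 : ∫⁻ z : E d, (if ‖z‖ < ‖x‖ then F ‖z‖ else 0)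
        = ∫⁻ z in ball (0 : E d) ‖x‖, F ‖z‖ := by
      rw [← lintegral_indicator measurableSet_ball]
      congr 1
      funext z
      simp [Set.indicator, mem_ball, dist_zero_right]
    rw [h2, h3]
    simp only [cavg, hw]
    rw [div_eq_mul_inv, div_eq_mul_inv, div_eq_mul_inv, mul_assoc]
  have hR : ∀ z : E d, z ≠ 0 →
      ∫⁻ x, G x z ≤ 2 ^ (d + 1) * (F ‖z‖ / ENNReal.ofReal ‖z‖) := by
    intro z hz
    have h4 : ∫⁻ x, G x z = F ‖z‖ * ∫⁻ x in {x : E d | ‖z‖ < ‖x‖}, w x := by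
      rw [← lintegral_const_mul _ hwm,
        ← lintegral_indicator (measurableSet_lt measurable_const measurable_norm)]
      congr 1
      funext x
      simp [hG, Set.indicator]
    rw [h4]
    calc F ‖z‖ * ∫⁻ x in {x : E d | ‖z‖ < ‖x‖}, w x
        ≤ F ‖z‖ * (2 ^ (d + 1) / ENNReal.ofReal ‖z‖) := by
          gcongr
          exact htail ‖z‖ (norm_pos_iff.mpr hz)
      _ = 2 ^ (d + 1) * (F ‖z‖ / ENNReal.ofReal ‖z‖) := by
          rw [div_eq_mul_inv, div_eq_mul_inv]; ring
  have h0 : ∀ᵐ z : E d ∂volume, z ≠ 0 := by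
    have := compl_mem_ae_iff.mpr (measure_singleton (μ := (volume : Measure (E d))) (0 : E d))
    filter_upwards [this] with z hz
    simpa using hz
  calc ∫⁻ x : E d, cavg d F ‖x‖ / ENNReal.ofReal ‖x‖
      = ∫⁻ x, ∫⁻ z, G x z := lintegral_congr hL
    _ = ∫⁻ z, ∫⁻ x, G x z := lintegral_lintegral_swap hGm.aemeasurable
    _ ≤ ∫⁻ z : E d, 2 ^ (d + 1) * (F ‖z‖ / ENNReal.ofReal ‖z‖) := by
        apply lintegral_mono_ae
        filter_upwards [h0] with z hz
        exact hR z hz
    _ = 2 ^ (d + 1) * ∫⁻ z : E d, F ‖z‖ / ENNReal.ofReal ‖z‖ := by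
        rw [lintegral_const_mul' _ _ (by simp)]

end Vale.Agent.Lib.P137.H40
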